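import Vale.Agent.P078.Free.Pinch
import Vale.Agent.P078.Orbit.Mono

/-!
# What the assembly takes from the colour module (piece 3)

Not imported by hand-ins.
-/

namespace Vale.Agent.P078.General.Final

open scoped Topology ComplexOrder
open Filter Vale.Agent.P078.General.Single Vale.Agent.P078.General.Orbit

universe u

variable {H : Type u} [NormedAddCommGroup H] [InnerProductSpace ℂ H] [CompleteSpace H]

/-- Monomials: a coefficient in `A` times a partial normaliser. -/
abbrev MonP (M A : VonNeumannAlgebra H) (w : H →L[ℂ] H) : Prop :=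
  ∃ a ∈ A, ∃ v, IsPN M A v ∧ w = a * v

/-- Random colours for a finite sum of partial normalisers: data for the diffuse part, and a small
mean high moment of the pinched sum. -/
def HasColours (M A : VonNeumannAlgebra H) (φ : (H →L[ℂ] H) →ₗ[ℂ] ℂ) (r : ℕ) (ε : ℝ) : Prop :=
  ∀ s, IsSum M A s → IsSelfAdjoint s → expE A φ s = 0 → ‖s‖ ≤ 4 →
    ∀ (n : ℕ) (δ : ℝ), 0 < n → 0 < δ →
      ∃ (β : Type) (_ : Fintype β) (_ : Nonempty β) (Let : SFam A β → Prop)
        (P : Fin r → SFam A β),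
        (∀ Q c, IsPart A 1 fun i => P i Q c) ∧
        (∀ i, ColourData M A (MonP M A) Let ((r : ℝ)⁻¹) (P i)) ∧
        ∀ᶠ Q in refF A, (av fun c : Fin Q.n → β => sq φ (pinch (fun i => P i Q c) s ^ n)) ≤
          (ε ^ 2) ^ n * (φ 1).re + δ

/-- Piece 3 (consumes the local goal, its locality, symmetry and measurability). -/
def StmtColours : Prop :=
  ∃ C : ℝ, 0 < C ∧ ∀ ε : ℝ, 0 < ε → ε ≤ 1 → ∃ r : ℕ, 0 < r ∧ 1 / ε ^ 2 ≤ r ∧ (r : ℝ) ≤ C / ε ^ 2 ∧
    ∀ (H : Type u) [NormedAddCommGroup H] [InnerProductSpace ℂ H] [CompleteSpace H]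
      (M A : VonNeumannAlgebra H) (φ : (H →L[ℂ] H) →ₗ[ℂ] ℂ),
      IsCState M A φ → HasColours M A φ r ε

end Vale.Agent.P078.General.Final
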