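import Vale.Agent.P078.Final.Iface

/-!
# Paving from colours, diffuse moments and a finite approximation
-/

namespace Vale.Agent.P078.General.Final

open scoped InnerProductSpace Topology ComplexOrder
open Filter Vale.Agent.P078.General.Single Vale.Agent.P078.General.Orbit

universe u

variable {H : Type u} [NormedAddCommGroup H] [InnerProductSpace ℂ H] [CompleteSpace H]
variable {M A : VonNeumannAlgebra H} {φ : (H →L[ℂ] H) →ₗ[ℂ] ℂ}

/-- The statement of `Orbit/Approx`: the atomic part of a selfadjoint element. -/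
def HasAtomic (M A : VonNeumannAlgebra H) (φ : (H →L[ℂ] H) →ₗ[ℂ] ℂ) : Prop :=
  ∀ x ∈ M, IsSelfAdjoint x → ∃ e ∈ M, IsSelfAdjoint e ∧ ‖e‖ ≤ 2 * ‖x‖ ∧
    InD M A φ (x - e) ∧ ∀ η : ℝ, 0 < η →
      ∃ s, IsSum M A s ∧ IsSelfAdjoint s ∧ ‖s‖ ≤ 2 * ‖x‖ ∧ sq φ (e - s) ≤ η

/-- A projection almost below finitely many projections. -/
theorem exists_almost_below (hφ : IsCState M A φ) {n : ℕ} {q : Fin n → H →L[ℂ] H}
    (hqM : ∀ i, q i ∈ M) (hq : ∀ i, IsStarProjection (q i)) {θ : ℝ} (hθ : 0 < θ) :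
    ∃ Q ∈ M, IsStarProjection Q ∧ θ ^ 2 * sq φ (1 - Q) ≤ ∑ i, sq φ (1 - q i) ∧
      ∀ i, ‖(1 - q i) * Q‖ ≤ θ := by
  set T := ∑ i, (1 - q i) with hT
  have hTM : T ∈ M := sum_mem fun i _ => sub_mem (one_mem M) (hqM i)
  have hT0 : 0 ≤ T := Finset.sum_nonneg fun i _ => (hq i).one_sub.nonneg
  have hTs : IsSelfAdjoint T := IsSelfAdjoint.of_nonneg hT0
  set Q := cut T (θ ^ 2) with hQdef
  have hQ := isStarProjection_cut T (θ ^ 2)
  have hQM : Q ∈ M := cut_mem M hTM hTs _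
  refine ⟨Q, hQM, hQ, ?_, fun i => ?_⟩
  · have hQ1 : IsStarProjection (1 - Q) := hQ.one_sub
    have hle : 0 ≤ T - ((θ ^ 2 : ℝ) : ℂ) • (1 - Q) := by
      refine nonneg_of_re_inner (hTs.sub (by
        simp only [IsSelfAdjoint, star_smul, hQ1.isSelfAdjoint.star_eq, Complex.star_def,
          Complex.conj_ofReal])) fun u => ?_
      have h := norm_sub_cut_sq hTs hT0 (t := θ ^ 2) u
      rw [sub_apply, inner_sub_left, smul_apply, inner_smul_left, Complex.conj_ofReal,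
        Complex.sub_re, Complex.re_ofReal_mul]
      have e := star_proj_apply_norm_sq hQ1 u
      simp only [sub_apply, one_apply_eq_self] at e ⊢
      rw [← e]
      rw [← hQdef] at h
      linarith
    have h1 := (Complex.le_def.1 (hφ.map_nonneg
      (sub_mem hTM (smul_mem' M (sub_mem (one_mem M) hQM) _)) hle)).1
    simp only [map_sub, map_smul, Complex.zero_re, Complex.sub_re, smul_eq_mul,
      Complex.re_ofReal_mul] at h1
    have e1 : ∀ p : H →L[ℂ] H, IsStarProjection p → sq φ p = (φ p).re := fun p hp => by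
      rw [Single.sq, hp.isSelfAdjoint.star_eq, hp.isIdempotentElem.eq]
    simp only [e1 _ hQ1, fun i => e1 _ (hq i).one_sub]
    rw [hT, map_sum, Complex.re_sum] at h1
    simp only [map_sub, Complex.sub_re] at h1 ⊢
    linarith
  · refine ContinuousLinearMap.opNorm_le_bound _ hθ.le fun v => ?_
    refine le_of_pow_le_pow_left₀ two_ne_zero (by positivity) ?_
    rw [mul_apply_eq_comp, star_proj_apply_norm_sq (hq i).one_sub, mul_pow]
    have h1 : (⟪(1 - q i) (Q v), Q v⟫_ℂ).re ≤ (⟪T (Q v), Q v⟫_ℂ).re := by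
      rw [hT, sum_apply, sum_inner, Complex.re_sum]
      refine Finset.single_le_sum (f := fun j => (⟪(1 - q j) (Q v), Q v⟫_ℂ).re)
        (fun j _ => ?_) (Finset.mem_univ i)
      rw [← star_proj_apply_norm_sq (hq j).one_sub]
      positivity
    refine h1.trans ((re_inner_le_of_mem_cutSpace hTs (cut_mem_cutSpace T _ v)).trans ?_)
    exact mul_le_mul_of_nonneg_left (pow_le_pow_left₀ (norm_nonneg _) (norm_proj_le hQ v) 2)
      (sq_nonneg θ)

/-- Replacing a projection by one almost below it. -/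
theorem norm_compress_le {q Q S : H →L[ℂ] H} (hq : IsStarProjection q) (hQ : IsStarProjection Q)
    {τ K θ : ℝ} (hθ : 0 ≤ θ) (h1 : ‖q * S * q‖ ≤ τ) (hS : ‖S‖ ≤ K) (h2 : ‖(1 - q) * Q‖ ≤ θ) :
    ‖Q * S * Q‖ ≤ τ + 2 * θ * K := by
  have hQ1 := opNorm_proj_le_one hQ
  have hq1 := opNorm_proj_le_one hq
  have h2' : ‖Q * (1 - q)‖ ≤ θ := by
    refine le_trans (le_of_eq ?_) h2
    rw [← norm_star, star_mul, hQ.isSelfAdjoint.star_eq, hq.one_sub.isSelfAdjoint.star_eq]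
  have e : Q * S * Q = Q * (q * S * q) * Q + Q * (1 - q) * S * (q * Q) + Q * S * ((1 - q) * Q) := by
    simp only [sub_mul, mul_sub, one_mul, mul_one, mul_assoc]
    abel
  rw [e]
  have t1 : ‖Q * (q * S * q) * Q‖ ≤ 1 * τ * 1 :=
    norm_mul₃_le.trans (mul_le_mul (mul_le_mul hQ1 h1 (norm_nonneg _) zero_le_one) hQ1
      (norm_nonneg _) ((norm_nonneg _).trans h1 |> fun h => by linarith))
  have t2 : ‖Q * (1 - q) * S * (q * Q)‖ ≤ θ * K * 1 :=
    norm_mul₃_le.trans (mul_le_mul (mul_le_mul h2' hS (norm_nonneg _) hθ)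
      ((norm_mul_le _ _).trans (mul_le_one₀ hq1 (norm_nonneg _) hQ1)) (norm_nonneg _)
      (mul_nonneg hθ ((norm_nonneg _).trans hS)))
  have t3 : ‖Q * S * ((1 - q) * Q)‖ ≤ 1 * K * θ :=
    norm_mul₃_le.trans (mul_le_mul (mul_le_mul hQ1 hS (norm_nonneg _) zero_le_one) h2
      (norm_nonneg _) (by linarith [(norm_nonneg _).trans hS]))
  linarith [norm_add₃_le (a := Q * (q * S * q) * Q) (b := Q * (1 - q) * S * (q * Q))
    (c := Q * S * ((1 - q) * Q))]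

/-- The three parts of a centred selfadjoint element. -/
theorem exists_parts (hφ : IsCState M A φ) (hE : HasAtomic M A φ) {y : H →L[ℂ] H} (hy : y ∈ M)
    (hys : IsSelfAdjoint y) (hy1 : ‖y‖ ≤ 1) {η : ℝ} (hη : 0 < η) :
    ∃ d s w : H →L[ℂ] H, InD M A φ d ∧ IsSelfAdjoint d ∧ ‖d‖ ≤ 6 ∧
      IsSum M A s ∧ IsSelfAdjoint s ∧ expE A φ s = 0 ∧ ‖s‖ ≤ 4 ∧
      w ∈ M ∧ IsSelfAdjoint w ∧ ‖w‖ ≤ 12 ∧ sq φ w ≤ η ∧
      y - expE A φ y = d + (((2 : ℝ) : ℂ) • s + w) := by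
  obtain ⟨haA, han, -⟩ := hφ.expE_spec hy
  set a := expE A φ y with ha
  have haM := hφ.masa.le _ haA
  have has : IsSelfAdjoint a := by rw [IsSelfAdjoint, ha, ← hφ.expE_star hy, hys.star_eq]
  have hy0M : y - a ∈ M := sub_mem hy haM
  have hy0n : ‖y - a‖ ≤ 2 := (norm_sub_le _ _).trans (by linarith [han.trans hy1])
  obtain ⟨e, heM, hes, hen, hd, happ⟩ := hE _ hy0M (hys.sub has)
  have hEe : expE A φ e = 0 := by
    have h0 := hd.expE_zero hφ
    rw [hφ.expE_sub hy0M heM, hφ.expE_sub hy haM, hφ.expE_of_mem haA, sub_self, zero_sub,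
      neg_eq_zero] at h0
    exact h0
  obtain ⟨s, hs, hss, hsn, hes2⟩ := happ (η / 6) (by positivity)
  have hsM := hs.mem hφ.masa
  obtain ⟨hbA, hbn, -⟩ := hφ.expE_spec hsM
  set b := expE A φ s with hb
  have hbM := hφ.masa.le _ hbA
  have hbs : IsSelfAdjoint b := by rw [IsSelfAdjoint, hb, ← hφ.expE_star hsM, hss.star_eq]
  refine ⟨y - a - e, ((1 / 2 : ℝ) : ℂ) • (s - b), e - (s - b), hd, (hys.sub has).sub hes,
    (norm_sub_le _ _).trans (by linarith), (hs.sub (IsSum.of_memA hφ.masa hbA)).smul _, ?_, ?_, ?_,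
    sub_mem heM (sub_mem hsM hbM), hes.sub (hss.sub hbs),
    (norm_sub_le _ _).trans (by linarith [norm_sub_le s b]), ?_, ?_⟩
  · rw [IsSelfAdjoint, star_smul, (hss.sub hbs).star_eq, Complex.star_def, Complex.conj_ofReal]
  · rw [hφ.expE_smul (sub_mem hsM hbM), hφ.expE_sub hsM hbM, hφ.expE_of_mem hbA, sub_self,
      smul_zero]
  · rw [norm_smul, Complex.norm_real, Real.norm_of_nonneg (by norm_num)]
    linarith [norm_sub_le s b]
  · have h1 : sq φ b ≤ 2 * sq φ (e - s) := by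
      have h2 := hφ.sq_expE_le (sub_mem heM hsM)
      rwa [hφ.expE_sub heM hsM, hEe, zero_sub, ← hb, show sq φ (-b) = sq φ b by simp [Single.sq]] at h2
    have h3 := hφ.sq_add_le (sub_mem heM hsM) hbM
    rw [show e - s + b = e - (s - b) by abel] at h3
    linarith
  · rw [smul_smul, ← Complex.ofReal_mul]
    norm_num

theorem pinch_smul' {ι : Type*} [Fintype ι] (p : ι → H →L[ℂ] H) (c : ℂ) (x : H →L[ℂ] H) :
    pinch p (c • x) = c • pinch p x := by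
  simp [pinch, Finset.smul_sum]

/-- Comparison of a geometric bound with its target. -/
theorem mean_arith {N : ℕ} {x τ B φ1 d η : ℝ} (hx : 0 ≤ x) (hxτ : x ≤ B * τ) (hτ : 0 ≤ τ)
    (hφ1 : 0 ≤ φ1) (hB : B ^ N * φ1 ≤ d / 4) (hη : η ≤ d * τ ^ N / 4) :
    x ^ N * φ1 + η ≤ d / 2 * τ ^ N := by
  have h1 : x ^ N ≤ B ^ N * τ ^ N := by
    rw [← mul_pow]; exact pow_le_pow_left₀ hx hxτ N
  nlinarith [mul_le_mul_of_nonneg_right h1 hφ1, mul_le_mul_of_nonneg_right hB (pow_nonneg hτ N)]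

theorem exists_exponent {d φ1 : ℝ} (hd : 0 < d) (hφ1 : 0 ≤ φ1) :
    ∃ m : ℕ, ∀ x : ℝ, 0 ≤ x → x ≤ 1 / 2 → x ^ 2 ^ m * φ1 ≤ d / 4 := by
  obtain ⟨m, hm⟩ := exists_pow_lt_of_lt_one
    (div_pos hd (show (0 : ℝ) < 4 * (φ1 + 1) by positivity)) one_half_lt_one
  refine ⟨m, fun x hx hx2 => ?_⟩
  rw [lt_div_iff₀ (by positivity)] at hm
  have h1 : x ^ 2 ^ m ≤ (1 / 2) ^ m := (pow_le_pow_left₀ hx hx2 _).trans
    (pow_le_pow_of_le_one (by norm_num) (by norm_num) Nat.lt_two_pow_self.le)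
  nlinarith [mul_le_mul_of_nonneg_right h1 hφ1, show (0 : ℝ) ≤ (1 / 2 : ℝ) ^ m by positivity]

/-- One colouring with small high moments on both parts. -/
theorem exists_colouring (hφ : IsCState M A φ) (hD : FreeData M A φ (MonP M A) (InD M A φ))
    {r : ℕ} {ε : ℝ} (hr : 0 < r) (hε : 0 < ε) (hrε : 1 / ε ^ 2 ≤ r) (hC : HasColours M A φ r ε)
    {d s : H →L[ℂ] H} (hd : InD M A φ d) (hds : IsSelfAdjoint d) (hdn : ‖d‖ ≤ 6)
    (hs : IsSum M A s) (hss : IsSelfAdjoint s) (hsE : expE A φ s = 0) (hsn : ‖s‖ ≤ 4)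
    {d1 : ℝ} (hd1 : 0 < d1) :
    ∃ (m : ℕ) (p : Fin r → H →L[ℂ] H), IsPart A 1 p ∧
      sq φ (pinch p d ^ 2 ^ m) ≤ d1 * ((200 * ε) ^ 2) ^ 2 ^ m ∧
      sq φ (pinch p s ^ 2 ^ m) ≤ d1 * ((2 * ε) ^ 2) ^ 2 ^ m := by
  have hφ1 : 0 ≤ (φ 1).re := by simpa [Single.sq] using hφ.sq_nonneg' (one_mem M)
  obtain ⟨m, hgeom⟩ := exists_exponent hd1 hφ1
  obtain ⟨n', hn'⟩ : ∃ n', 2 ^ m = n' + 1 :=
    ⟨2 ^ m - 1, (Nat.sub_add_cancel (Nat.one_le_two_pow)).symm⟩
  obtain ⟨β, _, _, Let, P, hP, hCD, hat⟩ := hC s hs hss hsE hsn (2 ^ m)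
    (d1 * ((2 * ε) ^ 2) ^ 2 ^ m / 4) (by omega) (by positivity)
  have hdiff := pinch_moment_free hφ hD hr hP hCD hd hds n'
    (show (0 : ℝ) < d1 * ((200 * ε) ^ 2) ^ 2 ^ m / 4 by positivity)
  rw [← hn'] at hdiff
  have := refF_neBot hφ.masa.comm
  obtain ⟨Q, hQa, hQd⟩ := (hat.and hdiff).exists
  have hx : 400 * (r : ℝ)⁻¹ * ‖d‖ ^ 2 ≤ 1 / 2 * (200 * ε) ^ 2 := by
    have h1 : (r : ℝ)⁻¹ ≤ ε ^ 2 := by
      have := inv_anti₀ (by positivity) hrε
      rwa [one_div, inv_inv] at this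
    have h2 := mul_le_mul h1 (pow_le_pow_left₀ (norm_nonneg _) hdn 2) (sq_nonneg ‖d‖) (sq_nonneg ε)
    linarith [sq_nonneg ε]
  have hfd := hQd.trans (mean_arith (τ := (200 * ε) ^ 2) (B := 1 / 2) (d := d1) (by positivity) hx
    (sq_nonneg _) hφ1 (hgeom _ (by norm_num) le_rfl) le_rfl)
  have hfs := hQa.trans (mean_arith (τ := (2 * ε) ^ 2) (B := 1 / 4) (d := d1) (sq_nonneg ε)
    (le_of_eq (by ring)) (sq_nonneg _) hφ1 (hgeom _ (by norm_num) (by norm_num)) le_rfl)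
  have hM : ∀ (c : Fin Q.n → β) {x : H →L[ℂ] H}, x ∈ M →
      0 ≤ sq φ (pinch (fun i => P i Q c) x ^ 2 ^ m) :=
    fun c x hx => hφ.sq_nonneg' (pow_mem ((hP Q c).pinch_mem hφ.masa.le hx) _)
  obtain ⟨c, hc1, hc2⟩ := exists_good_sample (fun c => hM c hd.mem)
    (fun c => hM c (hs.mem hφ.masa)) (by positivity) (by positivity) hfd hfs
  exact ⟨m, _, hP Q c, hc1.trans_eq (by ring), hc2.trans_eq (by ring)⟩

/-- Paving in a centralised state from colours. -/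
theorem exists_pave_colours (hφ : IsCState M A φ) (hD : FreeData M A φ (MonP M A) (InD M A φ))
    (hE : HasAtomic M A φ) {r : ℕ} {ε : ℝ} (hr : 0 < r) (hε : 0 < ε) (hrε : 1 / ε ^ 2 ≤ r)
    (hC : HasColours M A φ r ε) {y : H →L[ℂ] H} (hy : y ∈ M) (hys : IsSelfAdjoint y)
    (hy1 : ‖y‖ ≤ 1) (F : Finset H) {δ : ℝ} (hδ : 0 < δ) :
    ∃ (p : Fin r → H →L[ℂ] H) (q : H →L[ℂ] H), IsPart A 1 p ∧ q ∈ M ∧ IsStarProjection q ∧
      (∀ v ∈ F, ‖(1 - q) v‖ < δ) ∧ ‖q * (pinch p y - expE A φ y) * q‖ ≤ 215 * ε := by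
  classical
  choose d0 hd0 hd0v using fun v : H => hφ.norm_apply_small v 1 hδ
  obtain ⟨dF, hdF0, hdF⟩ := (eventually_mem_nhdsWithin.and ((Filter.eventually_all_finset F).2
    fun v _ => eventually_nhdsWithin_of_eventually_nhds (eventually_le_nhds (half_pos (hd0 v))))).exists
      (f := 𝓝[>] (0 : ℝ))
  replace hdF0 : 0 < dF := hdF0
  set θ := ε / 10 with hθdef
  have hθ : 0 < θ := by positivity
  set d1 := dF * θ ^ 2 / 3 with hd1
  have hd10 : 0 < d1 := by positivity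
  obtain ⟨d, s, w, hd, hds, hdn, hs, hss, hsE, hsn, hwM, hws, hwn, hwsq, heq⟩ :=
    exists_parts hφ hE hy hys hy1 (η := d1 * ε ^ 2) (by positivity)
  obtain ⟨m, p, hp, hc1, hc2⟩ :=
    exists_colouring hφ hD hr hε hrε hC hd hds hdn hs hss hsE hsn hd10
  have hpS : ∀ {x : H →L[ℂ] H}, IsSelfAdjoint x → IsSelfAdjoint (pinch p x) := fun hx => by
    rw [IsSelfAdjoint, hp.star_pinch, hx.star_eq]
  have hpM : ∀ {x : H →L[ℂ] H}, x ∈ M → pinch p x ∈ M := fun hx => hp.pinch_mem hφ.masa.le hx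
  obtain ⟨q1, hq1M, hq1, hq1s, hq1n⟩ := exists_cut_small hφ (hpM hd.mem) (hpS hds) m
    (show 0 < 200 * ε by positivity) hc1
  obtain ⟨q2, hq2M, hq2, hq2s, hq2n⟩ := exists_cut_small hφ (hpM (hs.mem hφ.masa)) (hpS hss) m
    (show 0 < 2 * ε by positivity) hc2
  obtain ⟨q3, hq3M, hq3, hq3s, hq3n⟩ := exists_cut_small hφ (hpM hwM) (hpS hws) 0 hε (d := d1)
    (by
      rw [pow_zero, pow_one, pow_one]
      exact (hφ.sq_pinch_le ⟨r, _, hp⟩ hwM).trans hwsq)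
  obtain ⟨q, hqM, hq, hqs, hqle⟩ := exists_almost_below hφ (q := ![q1, q2, q3])
    (by simp [Fin.forall_fin_succ, hq1M, hq2M, hq3M])
    (by simp [Fin.forall_fin_succ, hq1, hq2, hq3]) hθ
  refine ⟨p, q, hp, hqM, hq, fun v hv => ?_, ?_⟩
  · refine hd0v v (1 - q) (sub_mem (one_mem M) hqM) (opNorm_proj_le_one hq.one_sub) ?_
    have h3 : θ ^ 2 * sq φ (1 - q) ≤ 3 * d1 := hqs.trans (by
      simp only [Fin.sum_univ_three, Matrix.cons_val]
      linarith)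
    rw [show 3 * d1 = θ ^ 2 * dF by rw [hd1]; ring] at h3
    exact lt_of_le_of_lt ((le_of_mul_le_mul_left h3 (by positivity)).trans (hdF v hv))
      (half_lt_self (hd0 v))
  · have haA := hφ.expE_mem hy
    rw [show pinch p y - expE A φ y = pinch p (y - expE A φ y) by
      rw [pinch_sub, hp.pinch_of_commute (a := expE A φ y) fun i =>
        hφ.masa.comm _ (hp.mem i) _ haA, mul_one],
      heq, pinch_add, pinch_add, pinch_smul', mul_add, add_mul, mul_add, add_mul, mul_smul_comm,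
      smul_mul_assoc]
    have b1 := norm_compress_le hq1 hq hθ.le hq1n ((hp.norm_pinch_le d).trans hdn) (hqle 0)
    have b2 := norm_compress_le hq2 hq hθ.le hq2n ((hp.norm_pinch_le s).trans hsn) (hqle 1)
    have b3 := norm_compress_le hq3 hq hθ.le hq3n ((hp.norm_pinch_le w).trans hwn) (hqle 2)
    refine (norm_add_le _ _).trans ((add_le_add le_rfl ((norm_add_le _ _).trans
      (add_le_add (norm_smul _ _).le le_rfl))).trans ?_)
    rw [Complex.norm_real, Real.norm_of_nonneg zero_le_two]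
    linarith

end Vale.Agent.P078.General.Final
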