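import Vale.Agent.P078.Final.Blend
import Vale.Agent.P078.Single.Main

/-!
# So-paving of every MASA from colours
-/

namespace Vale.Agent.P078.General.Final

open scoped InnerProductSpace Topology ComplexOrder
open Filter Vale.Agent.P078.General.Single Vale.Agent.P078.General.Orbit

universe u

variable {H : Type u} [NormedAddCommGroup H] [InnerProductSpace ℂ H] [CompleteSpace H]
variable {M A : VonNeumannAlgebra H}

/-- What piece 2 proves about monomials and gaps. -/
def InputFree : Prop :=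
  ∀ (H : Type u) [NormedAddCommGroup H] [InnerProductSpace ℂ H] [CompleteSpace H]
    (M A : VonNeumannAlgebra H) (φ : (H →L[ℂ] H) →ₗ[ℂ] ℂ), IsCState M A φ →
      FreeData M A φ (MonP M A) (InD M A φ)

/-- What piece 2 proves about the atomic part. -/
def InputAtomic : Prop :=
  ∀ (H : Type u) [NormedAddCommGroup H] [InnerProductSpace ℂ H] [CompleteSpace H]
    (M A : VonNeumannAlgebra H) (φ : (H →L[ℂ] H) →ₗ[ℂ] ℂ), IsCState M A φ → HasAtomic M A φ

/-- A corner of a MASA with a faithful centralised functional becomes a state. -/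
theorem exists_cstate_flatten_masa (hA : IsMasa M A) {e : H →L[ℂ] H} (he : e ∈ A)
    (hep : IsStarProjection e) (t : Finset (H →L[ℂ] H)) (ht : ∀ g ∈ t, g ∈ A ∧
      IsStarProjection g ∧ Supported M A g) (hte : ∀ g ∈ t, g * e = g) (hsum : ∑ g ∈ t, g = e) :
    ∃ φ : (H →L[ℂ] H) →ₗ[ℂ] ℂ, IsCState (flatten M e) (flatten A e) φ := by
  classical
  have hmasa := isMasa_flatten hA he hep
  choose ψ hψc hψp hψt hψs hψf using fun g : t => (ht g.1 g.2).2.2
  obtain ⟨η, hη, hη'⟩ : ∃ η : H, (∀ y ∈ flatten M e, ∃ c : ℂ, y η = c • η) ∧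
      ∀ y ∈ flatten M e, y η = 0 → ∀ v, e v = 0 → y v = 0 := by
    by_cases h1 : e = 1
    · exact ⟨0, fun y _ => ⟨0, by simp⟩, fun y _ _ v hv => by
        rw [h1, one_apply_eq_self] at hv; rw [hv, map_zero]⟩
    · obtain ⟨u₀, hu₀⟩ : ∃ v, (1 - e) v ≠ 0 := by
        by_contra h
        push Not at h
        exact h1 (sub_eq_zero.1 (ContinuousLinearMap.ext h : 1 - e = 0)).symm
      set η := ((‖(1 - e) u₀‖⁻¹ : ℝ) : ℂ) • (1 - e) u₀ with hηdef
      have hη : e η = 0 := by
        rw [hηdef, map_smul, sub_apply, one_apply_eq_self, map_sub]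
        rw [show e (e u₀) = e u₀ from
          congrArg (fun S : H →L[ℂ] H => S u₀) hep.isIdempotentElem.eq, sub_self, smul_zero]
      have hη1 : ‖η‖ = 1 := by
        rw [hηdef, norm_smul, Complex.norm_real, norm_inv, norm_norm,
          inv_mul_cancel₀ (norm_ne_zero_iff.2 hu₀)]
      refine ⟨η, fun y hy => ⟨_, flatten_apply_off hep hy hη hη1 hη⟩, fun y hy h0 v hv => ?_⟩
      rw [flatten_apply_off hep hy hη hη1 hv, h0, inner_zero_right, zero_smul]
  let φ : (H →L[ℂ] H) →ₗ[ℂ] ℂ := (∑ g : t, ψ g) +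
    { toFun := fun y => ⟪η, y η⟫_ℂ
      map_add' := fun y w => by simp [inner_add_right]
      map_smul' := fun c y => by simp [inner_smul_right] }
  have hφ : ∀ y, φ y = (∑ g : t, ψ g y) + ⟪η, y η⟫_ℂ := fun y => by
    simp [φ, LinearMap.sum_apply]
  have hM : ∀ y ∈ flatten M e, y ∈ M := fun y hy => ((mem_flatten hep).1 hy).1
  have hvec : ∀ y : H →L[ℂ] H, ⟪η, (star y * y) η⟫_ℂ = ((‖y η‖ ^ 2 : ℝ) : ℂ) := fun y => by
    rw [mul_apply_eq_comp, ContinuousLinearMap.star_eq_adjoint,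
      ContinuousLinearMap.adjoint_inner_right, inner_self_eq_norm_sq_to_K]
    norm_cast
  have hpos : ∀ y ∈ flatten M e, 0 ≤ (∑ g : t, ψ g (star y * y)) :=
    fun y hy => Finset.sum_nonneg fun g _ => hψp g y (hM y hy)
  refine ⟨φ, hmasa, ?_, ?_, ?_, ?_⟩
  · intro δ hδ
    set N : ℝ := Fintype.card t + 1 with hN
    choose F η' hη' hF using fun g : t => hψc g (δ / (2 * N)) (by positivity)
    obtain ⟨κ, hκ0, hκ⟩ := (eventually_mem_nhdsWithin.and ((eventually_all.2
      fun g : t => eventually_nhdsWithin_of_eventually_nhds (eventually_le_nhds (hη' g))).and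
      (eventually_nhdsWithin_of_eventually_nhds
        (eventually_le_nhds (show 0 < δ / (2 * (‖η‖ + 1)) by positivity))))).exists
        (f := 𝓝[>] (0 : ℝ))
    refine ⟨insert η (Finset.univ.biUnion F), κ, hκ0, fun y hy hy1 hyF => ?_⟩
    rw [hφ]
    refine (norm_add_le _ _).trans ?_
    have h1 : ‖∑ g : t, ψ g y‖ ≤ δ / 2 := by
      refine (norm_sum_le _ _).trans ((Finset.sum_le_sum fun g _ => hF g y (hM y hy) hy1
        fun v hv => (hyF v (Finset.mem_insert_of_mem (Finset.mem_biUnion.2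
          ⟨g, Finset.mem_univ g, hv⟩))).trans (hκ.1 g)).trans ?_)
      rw [Finset.sum_const, Finset.card_univ, nsmul_eq_mul, mul_div_assoc',
        div_le_div_iff₀ (by positivity) two_pos]
      nlinarith
    have h2 : ‖⟪η, y η⟫_ℂ‖ ≤ δ / 2 := by
      refine (norm_inner_le_norm η (y η)).trans ?_
      have := mul_le_mul_of_nonneg_left
        ((hyF η (Finset.mem_insert_self _ _)).trans hκ.2) (norm_nonneg η)
      refine this.trans ?_
      rw [mul_div_assoc', div_le_div_iff₀ (by positivity) two_pos]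
      nlinarith [norm_nonneg η]
    linarith
  · intro y hy
    rw [hφ, hvec]
    exact add_nonneg (hpos y hy) (Complex.zero_le_real.2 (sq_nonneg _))
  · intro a ha y hy
    rw [hφ, hφ]
    congr 1
    · exact Finset.sum_congr rfl fun g _ => hψt g a ((mem_flatten hep).1 ha).1 y (hM y hy)
    · obtain ⟨c, hc⟩ := hη a (hmasa.le a ha)
      obtain ⟨d, hd⟩ := hη y hy
      simp only [mul_apply_eq_comp, hc, hd, map_smul, smul_smul, mul_comm]
  · intro y hy h0
    rw [hφ, hvec] at h0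
    have h1 := (add_eq_zero_iff_of_nonneg (hpos y hy) (Complex.zero_le_real.2 (sq_nonneg _))).1 h0
    have hyη : y η = 0 := by
      have h2 : ‖y η‖ ^ 2 = 0 := Complex.ofReal_eq_zero.1 h1.2
      exact norm_eq_zero.1 (pow_eq_zero_iff two_ne_zero |>.1 h2)
    have hyg : ∀ g : t, y * g.1 = 0 := by
      intro g
      obtain ⟨hgA, hgp, -⟩ := ht g.1 g.2
      have hz := (Finset.sum_eq_zero_iff_of_nonneg fun g _ => hψp g y (hM y hy)).1 h1.1 g
        (Finset.mem_univ g)
      refine hψf g _ (mul_mem (hM y hy) (hA.le _ hgA))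
        (by rw [mul_assoc, hgp.isIdempotentElem.eq]) ?_
      rw [← hψs g _ (mul_mem (star_mem (hM y hy)) (hM y hy))] at hz
      rw [star_mul, hgp.isSelfAdjoint.star_eq]
      simpa only [mul_assoc] using hz
    have hye : y * e = 0 := by
      rw [← hsum, Finset.mul_sum]
      exact Finset.sum_eq_zero fun g hg => hyg ⟨g, hg⟩
    refine ContinuousLinearMap.ext fun v => ?_
    have h2 : e (v - e v) = 0 := by
      rw [map_sub, show e (e v) = e v from
        congrArg (fun S : H →L[ℂ] H => S v) hep.isIdempotentElem.eq, sub_self]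
    have h3 := hη' y hy hyη _ h2
    rw [map_sub, show y (e v) = 0 from congrArg (fun S : H →L[ℂ] H => S v) hye, sub_zero] at h3
    simpa using h3

/-- So-paving of a MASA from colours in its centralised corners. -/
theorem soPavable_of_colours (hA : IsMasa M A) (hD : InputFree.{u}) (hE : InputAtomic.{u})
    {ε ε₁ : ℝ} (hε : 0 < ε) (hε₁ : 0 < ε₁) (hεε : 215 * ε₁ ≤ ε) {r₁ r₂ : ℕ} (hr₁ : 0 < r₁)
    (hr₁ε : 1 / ε₁ ^ 2 ≤ r₁) (hC : ∀ (N B : VonNeumannAlgebra H) (ψ : (H →L[ℂ] H) →ₗ[ℂ] ℂ),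
      IsCState N B ψ → HasColours N B ψ r₁ ε₁)
    (hr₂ : 3 / ε ≤ r₂) {x : H →L[ℂ] H} (hxM : x ∈ M) (hx : IsSelfAdjoint x) :
    SoPavable M A ε (r₁ + r₂) x := by
  refine soPavable_of_contractions (fun y hy hys hy1 F δ hδ => ?_) hxM hx
  classical
  have hr0 : 0 < r₂ := by
    have : (0 : ℝ) < r₂ := lt_of_lt_of_le (by positivity) hr₂
    exact_mod_cast this
  obtain ⟨z, hzA, hz, -, hmax, happ⟩ :=
    exists_max_family A (Supported M A) 1 (IsStarProjection.one _)
  have hno : NoCentralised M A (1 - z) := by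
    intro φ hc hp ht hs y hy
    by_contra hne
    obtain ⟨g, hgA, hgp, hg0, hgz, hg⟩ :=
      exists_supported_below hA hc hp ht hzA hz hs ⟨y, hy, hne⟩
    exact hg0 (hmax g hgA hgp (mul_one g) hg hgz)
  obtain ⟨t, ht, hto, htz, htF⟩ := happ F (δ / 3) (by positivity)
  set e := ∑ g ∈ t, g with he
  have hep : IsStarProjection e :=
    isStarProjection_sum t (fun g => g) (fun g hg => (ht g hg).2.1) hto
  have heA : e ∈ A := sum_mem fun g hg => (ht g hg).1
  have heM := hA.le e heA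
  have hez : e * z = e := by
    rw [he, Finset.sum_mul]; exact Finset.sum_congr rfl htz
  have hte : ∀ g ∈ t, g * e = g := fun g hg => by
    rw [he, Finset.mul_sum, Finset.sum_eq_single g (fun b hb hne => hto g hg b hb hne.symm)
      fun h => absurd hg h]
    exact (ht g hg).2.1.isIdempotentElem.eq
  obtain ⟨φ, hφ⟩ := exists_cstate_flatten_masa hA heA hep t ht hte rfl
  set y' := e * y * e with hy'
  have hy'M : y' ∈ flatten M e := corner_mem_flatten hep (mul_mem (mul_mem heM hy) heM)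
    (by simp only [hy', ← mul_assoc, hep.isIdempotentElem.eq]
        rw [mul_assoc, hep.isIdempotentElem.eq])
  have hy's : IsSelfAdjoint y' := by
    have := hys.conjugate e
    rwa [hep.isSelfAdjoint.star_eq] at this
  have hy'1 : ‖y'‖ ≤ 1 := by
    refine norm_mul₃_le.trans ?_
    calc ‖e‖ * ‖y‖ * ‖e‖ ≤ 1 * 1 * 1 := by gcongr <;> exact opNorm_proj_le_one hep
      _ = 1 := by norm_num
  set a := expE (flatten A e) φ y' with ha
  obtain ⟨haA, han, -⟩ := hφ.expE_spec hy'M
  have has : IsSelfAdjoint a := by rw [IsSelfAdjoint, ha, ← hφ.expE_star hy'M, hy's.star_eq]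
  have haM := hφ.masa.le _ haA
  obtain ⟨p, q, hp, hqM, hq, hqF, hn⟩ := exists_pave_colours hφ (hD H _ _ _ hφ) (hE H _ _ _ hφ) hr₁
    hε₁ hr₁ε (hC _ _ _ hφ) hy'M hy's hy'1 (F.image e) (δ := δ / 3) (by positivity)
  obtain ⟨haA', haz, -⟩ := (mem_flatten hep).1 haA
  obtain ⟨hqM', hqz, -⟩ := (mem_flatten hep).1 hqM
  have hpz : ∀ i, Commute (p i) e := fun i =>
    hA.comm _ ((mem_flatten hep).1 (hp.mem i)).1 e heA
  have hp₁ : IsPart A e (fun i => p i * e) := by
    refine ⟨fun i => mul_mem ((mem_flatten hep).1 (hp.mem i)).1 heA,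
      fun i => (hp.proj i).mul hep (hpz i), fun i j hij => ?_, ?_⟩
    · rw [mul_assoc, ← mul_assoc e, ← (hpz j).eq, ← mul_assoc, ← mul_assoc, hp.orth i j hij,
        zero_mul, zero_mul]
    · rw [← Finset.sum_mul, hp.sum_eq, one_mul]
  have ha₁s : IsSelfAdjoint (a * e) := by
    rw [IsSelfAdjoint, star_mul, hep.isSelfAdjoint.star_eq, has.star_eq, haz.eq]
  have ha₁n : ‖a * e‖ ≤ 1 := (norm_mul_le _ _).trans
    (mul_le_one₀ (han.trans hy'1) (norm_nonneg _) (opNorm_proj_le_one hep))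
  have hq₁ : IsStarProjection (q * e) := hq.mul hep hqz.symm
  have h1 : ‖q * e * (pinch (fun i => p i * e) y - a * e) * (q * e)‖ ≤ ε := by
    have e1 : pinch (fun i => p i * e) y = pinch p y' := by
      refine Finset.sum_congr rfl fun i _ => ?_
      calc p i * e * y * (p i * e) = p i * e * y * (e * p i) := by rw [(hpz i).eq]
        _ = _ := by simp [hy', mul_assoc]
    have e3 : ∀ S, q * e * S * (q * e) = e * (q * S * q) * e := fun S => by
      rw [← hqz.eq]
      simp only [mul_assoc]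
      congr 3
    have e4 : q * e * (a * e) * (q * e) = q * e * a * (q * e) := by
      have : e * (q * e) = q * e := by
        rw [← mul_assoc, hqz.eq, mul_assoc, hep.isIdempotentElem.eq]
      simp only [mul_assoc]
      rw [this]
    rw [e1, mul_sub (q * e), sub_mul _ _ (q * e), e4, ← sub_mul _ _ (q * e), ← mul_sub (q * e),
      e3]
    refine norm_mul₃_le.trans ?_
    calc ‖e‖ * ‖q * (pinch p y' - a) * q‖ * ‖e‖ ≤ 1 * ε * 1 := by
          gcongr
          exacts [opNorm_proj_le_one hep, hn.trans hεε, opNorm_proj_le_one hep]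
      _ = ε := by ring
  have hex := exists_thin_of_pinch hA (sub_mem (one_mem A) hzA) hz.one_sub
    (exists_small_pinch_of_noCentralised hA (sub_mem (one_mem A) hzA) hz.one_sub hno)
  obtain ⟨p₂, a₂, q₂, hp₂, ha₂A, ha₂s, ha₂z, ha₂n, hq₂M, hq₂, hq₂z, hq₂F, h2⟩ :=
    paving_of_thin hA (sub_mem (one_mem A) hzA) hz.one_sub hex hy hys hy1 hε hr₂ F
      (δ := δ / 3) (by positivity)
  obtain ⟨P, hP, hQ, hab, hPn⟩ := exists_join (x := y) hep hz heA hzA hez hr0
    hp₁ hp₂ hq₁ hq₂ (by rw [mul_assoc, hep.isIdempotentElem.eq]) hq₂z ha₁s ha₂s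
    (by rw [mul_assoc, hep.isIdempotentElem.eq]) ha₂z hε.le h1 h2 zero_le_one ha₁n (ha₂n.trans hy1)
  refine ⟨P, a * e + a₂, q * e + q₂, hP, add_mem (mul_mem haA' heA) ha₂A, ha₁s.add ha₂s, hab,
    add_mem (mul_mem hqM' heM) hq₂M, hQ, fun v hv => ?_, hPn⟩
  have e1 : (1 - (q * e + q₂)) v = (1 - q) (e v) + ((z v - e v) + ((1 - z) v - q₂ v)) := by
    simp only [sub_apply, add_apply, one_apply_eq_self, mul_apply_eq_comp]
    abel
  rw [e1]
  linarith [norm_add_le ((1 - q) (e v)) ((z v - e v) + ((1 - z) v - q₂ v)),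
    norm_add_le (z v - e v) ((1 - z) v - q₂ v),
    hqF (e v) (Finset.mem_image_of_mem e hv), htF v hv, hq₂F v hv]

/-- One `C / ε²` bound for all MASAs of all von Neumann algebras. -/
theorem exists_bound_of_colours (hD : InputFree.{u}) (hE : InputAtomic.{u})
    (hcol : StmtColours.{u}) :
    ∃ C : ℝ, 0 < C ∧ ∀ ε : ℝ, 0 < ε → ε ≤ 1 → ∃ r : ℕ, 0 < r ∧ (r : ℝ) ≤ C / ε ^ 2 ∧
      ∀ (H : Type u) [NormedAddCommGroup H] [InnerProductSpace ℂ H] [CompleteSpace H]
        (M A : VonNeumannAlgebra H), IsMasa M A →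
          ∀ x ∈ M, IsSelfAdjoint x → SoPavable M A ε r x := by
  obtain ⟨C, hC0, hC⟩ := hcol
  refine ⟨215 ^ 2 * C + 4, by positivity, fun ε hε hε1 => ?_⟩
  have hp : 0 < ε ^ 2 := by positivity
  obtain ⟨r, hr0, hrl, hru, hr⟩ := hC (ε / 215) (by positivity) (by linarith)
  refine ⟨r + ⌈3 / ε⌉₊, by omega, ?_, fun H _ _ _ M A hA x hx hxs =>
    soPavable_of_colours hA hD hE hε (by positivity) (le_of_eq (by ring)) hr0 hrl (hr H)
      (Nat.le_ceil _) hx hxs⟩
  have h1 : C / (ε / 215) ^ 2 = 215 ^ 2 * C / ε ^ 2 := by field_simp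
  have h2 : (⌈3 / ε⌉₊ : ℝ) ≤ 4 / ε ^ 2 := by
    refine (Nat.ceil_lt_add_one (by positivity)).le.trans ?_
    rw [div_add_one hε.ne', div_le_div_iff₀ hε hp]
    nlinarith [mul_le_mul_of_nonneg_left hε1 hp.le]
  push_cast
  rw [add_div]
  exact add_le_add (hru.trans_eq h1) h2

end Vale.Agent.P078.General.Final
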