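import Vale.Agent.P078.Final.Corner
import Vale.Agent.P078.Orbit.Approx
import Vale.Agent.P078.Orbit.Criterion

/-!
# The inputs of the assembly from the monomial module
-/

namespace Vale.Agent.P078.General.Final

open scoped InnerProductSpace Topology ComplexOrder
open Vale.Agent.P078.General.Single Vale.Agent.P078.General.Orbit

universe u

variable {H : Type u} [NormedAddCommGroup H] [InnerProductSpace ℂ H] [CompleteSpace H]
variable {M A : VonNeumannAlgebra H} {φ : (H →L[ℂ] H) →ₗ[ℂ] ℂ}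

/-- The data for the diffuse part. -/
theorem freeData (hφ : IsCState M A φ) : FreeData M A φ (MonP M A) (InD M A φ) where
  mon_mem := by
    rintro _ ⟨a, ha, v, hv, rfl⟩
    exact mul_mem (hφ.masa.le a ha) hv.mem
  mon_conj := by
    rintro _ ⟨a, ha, v, hv, rfl⟩ b hb
    have e : a * v * b * star (a * v) = a * (v * b * star v) * star a := by
      rw [star_mul]; simp only [mul_assoc]
    rw [e]
    exact mul_mem (mul_mem ha (hv.conj b hb)) (star_mem ha)
  mon_one := ⟨1, one_mem A, 1, IsPN.one hφ.masa, (mul_one 1).symm⟩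
  mon_mul := by
    rintro _ _ ⟨a, ha, v, hv, rfl⟩ ⟨b, hb, w, hw, rfl⟩
    refine ⟨a * (v * b * star v), mul_mem ha (hv.conj b hb), v * w, hv.mul hφ.masa hw, ?_⟩
    calc a * v * (b * w) = a * (v * b) * w := by simp only [mul_assoc]
      _ = a * (v * b * star v * v) * w := by rw [← hv.mul_A hφ.masa hb]
      _ = _ := by simp only [mul_assoc]
  mon_star := by
    rintro _ ⟨a, ha, v, hv, rfl⟩
    refine ⟨star v * star a * v, hv.conj' _ (star_mem ha), star v, hv.star, ?_⟩
    have h := hv.star.mul_A hφ.masa (star_mem ha)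
    rw [star_star] at h
    rw [star_mul]
    exact h
  gap_mem := fun _ hd => hd.mem
  gap_star := fun _ hd => hd.star hφ
  gap_left := by
    rintro _ d ⟨a, ha, v, hv, rfl⟩ hd
    rw [mul_assoc]
    exact (hd.mul_left_pn hφ hv).mul_left_A hφ ha
  gap_right := by
    rintro d _ hd ⟨a, ha, v, hv, rfl⟩
    rw [← mul_assoc]
    exact (hd.mul_right_A hφ ha).mul_right_pn hφ hv
  gap_diffuse := fun _ hd => diffuse_of_inD hφ hd
  approx := fun x hx => by
    obtain ⟨e, -, hD, happ⟩ := exists_atomic' hφ hx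
    refine ⟨x - e, ‖e‖ + 4 * ‖x‖, hD, fun η hη => ?_⟩
    obtain ⟨s, hs, hsn, hsq⟩ := happ η hη
    obtain ⟨k, a, v, ha, hv, rfl⟩ := hs.exists_fin
    refine ⟨k, fun _ => 1, fun i => a i * v i, fun i => ⟨a i, ha i, v i, hv i, rfl⟩, ?_, ?_⟩
    · rw [sub_sub_cancel]
      simp only [one_smul]
      exact (norm_sub_le _ _).trans (by linarith)
    · rw [sub_sub_cancel]
      simpa using hsq

/-- `InputFree`. -/
theorem inputFree : InputFree.{u} := fun _ _ _ _ _ _ _ hφ => freeData hφ

/-- `InputAtomic`. -/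
theorem inputAtomic : InputAtomic.{u} := fun _ _ _ _ _ _ _ hφ _ hx hxs => exists_atomic hφ hx hxs

/-- So-paving of every MASA from colours. -/
theorem exists_bound_of_stmtColours (hcol : StmtColours.{u}) :
    ∃ C : ℝ, 0 < C ∧ ∀ ε : ℝ, 0 < ε → ε ≤ 1 → ∃ r : ℕ, 0 < r ∧ (r : ℝ) ≤ C / ε ^ 2 ∧
      ∀ (H : Type u) [NormedAddCommGroup H] [InnerProductSpace ℂ H] [CompleteSpace H]
        (M A : VonNeumannAlgebra H), IsMasa M A →
          ∀ x ∈ M, IsSelfAdjoint x → SoPavable M A ε r x :=
  exists_bound_of_colours inputFree inputAtomic hcol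

end Vale.Agent.P078.General.Final
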